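import Crest.Statements.S0170
import Crest.Agent.Lib.S0170.Helper88Plan
import Crest.Agent.Lib.S0170.Helper88Assemble

set_option autoImplicit false
open scoped ContDiff
open Crest.AnalysisR.BoxFlow
open Crest Crest.AnalysisR

namespace Crest.Agent.S0170

/-- Finitely many pairwise disjoint rational boxes in 3-space are carried onto disjoint target boxes, each a translated determinant-one positive diagonal rescaling of its source, by the time-one flow of a smooth, compactly supported, effective, divergence-free velocity field active only in [1/4,3/4]. The flow equals the prescribed affine map on a neighbourhood of each source box. Effective: computably approximable mixed derivatives at rational points and computable global derivative bounds. -/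
theorem result
    (n : ℕ) (a b h k : Fin n → Fin 3 → ℚ)
    (hh : ∀ i j, 0 < h i j) (hk : ∀ i j, 0 < k i j)
    (ha : Pairwise fun i i' => Disjoint (box (a i) (h i)) (box (a i') (h i')))
    (hb : Pairwise fun i i' => Disjoint (box (b i) (k i)) (box (b i') (k i')))
    (hvol : ∀ i, ∏ j : Fin 3, k i j / h i j = 1) :
    ∃ (U : Field) (Φ : ℝ → (Fin 3 → ℝ) → (Fin 3 → ℝ)),
      ContDiff ℝ ∞ U ∧ HasCompactSupport U ∧ Effective U ∧
      (∀ p : ℝ × (Fin 3 → ℝ), p.1 ∉ Set.Icc (1 / 4 : ℝ) (3 / 4) → U p = 0) ∧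
      (∀ p : ℝ × (Fin 3 → ℝ), spaceDiv U p = 0) ∧ IsFlow U Φ ∧
      ∀ i : Fin n, ∃ O : Set (Fin 3 → ℝ), IsOpen O ∧ box (a i) (h i) ⊆ O ∧
        ∀ x ∈ O, Φ 1 x = fun j => (b i j : ℝ) + ((k i j / h i j : ℚ) : ℝ) * (x j - (a i j : ℝ)) := by
  obtain ⟨ε, hε, hreach⟩ := Helper88.planning n a b h k hh hk ha hb hvol
  obtain ⟨U, Φ, h1, h2, h3, h4, h5, h6, h7⟩ := Helper88.exists_flow_of_reach _ _ hreach
  refine ⟨U, Φ, h1, h2, h3, h4, h5, h6, fun i => ⟨obox a (fun i j => h i j + ε) i, ?_, ?_, ?_⟩⟩
  · have : obox a (fun i j => h i j + ε) i =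
        ⋂ j : Fin 3, (fun x : Fin 3 → ℝ => |x j - (a i j : ℝ)|) ⁻¹' Set.Iio ((h i j + ε : ℚ) : ℝ) := by
      ext x; simp [obox]
    rw [this]
    exact isOpen_iInter_of_finite fun j =>
      isOpen_Iio.preimage (by fun_prop)
  · intro x hx j
    have := hx j
    have hε' : (0 : ℝ) < (ε : ℝ) := by exact_mod_cast hε
    push_cast
    linarith
  · intro x hx
    rw [h7 i x hx]
    rfl

end Crest.Agent.S0170
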