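import Crest.Statements.S0359
import Crest.Agent.Lib.S0359.Basic

set_option autoImplicit false
open MeasureTheory
open scoped ENNReal
open Crest Crest.GeometryTopology

namespace Crest.Agent.S0359

/-- Fix an exponent 1 < p < ∞ with p ≠ 2 and n ≥ 9. If d is a dimension such that every n distinct points of any real L^p space can be mapped to the d-dimensional real ℓ^p space with all pairwise distances multiplied by one common factor s > 0 (an isometric embedding up to scaling), then ⌊(n − 1)/4⌋² ≤ d. -/
theorem result
    (p : ℝ≥0∞) [Fact (1 ≤ p)] (hp1 : 1 < p) (hptop : p ≠ ⊤) (hp2 : p ≠ 2)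
    (n : ℕ) (hn : 9 ≤ n) (d : ℕ)
    (hd : ∀ (α : Type) [MeasurableSpace α] (μ : Measure α) (x : Fin n → Lp ℝ p μ),
      Function.Injective x →
      ∃ (y : Fin n → PiLp p (fun _ : Fin d => ℝ)) (s : ℝ), 0 < s ∧
        ∀ i j, ‖y i - y j‖ = s * ‖x i - x j‖) :
    ((n - 1) / 4) ^ 2 ≤ d := by
  classical
  -- the exponent as a real number
  have hq1 : 1 < p.toReal := by
    have := (ENNReal.toReal_lt_toReal ENNReal.one_ne_top hptop).2 hp1
    simpa using this
  have hq0 : 0 < p.toReal := by linarith
  have hq2 : p.toReal ≠ 2 := by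
    intro h
    apply hp2
    have := ENNReal.ofReal_toReal hptop
    rw [h] at this
    rw [← this]
    simp
  -- the grid size
  set m : ℕ := (n - 1) / 4 with hm
  have hmn : 4 * m + 1 ≤ n := by omega
  have hm2 : 2 ≤ m := by omega
  rw [sq]
  -- the configuration in `L^p` of the counting measure on the `m × m` grid
  let E := Lp ℝ p (Measure.count : Measure (Fin m × Fin m))
  let u : Fin m → E := fun j => emb p (rowInd j)
  let w : Fin m → E := fun k => emb p (colInd k)
  have hu : ∀ j l, j ≠ l → ‖u j + u l‖ ^ p.toReal = ‖u j‖ ^ p.toReal + ‖u l‖ ^ p.toReal ∧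
      ‖u j - u l‖ ^ p.toReal = ‖u j‖ ^ p.toReal + ‖u l‖ ^ p.toReal := by
    intro j l hjl
    refine norm_emb_disjoint hq0 hptop _ _ ?_
    intro x
    by_cases h1 : x.1 = j
    · right
      have : x.1 ≠ l := fun h => hjl (h1.symm.trans h)
      simp [rowInd, this]
    · left
      simp [rowInd, h1]
  have hw : ∀ j l, j ≠ l → ‖w j + w l‖ ^ p.toReal = ‖w j‖ ^ p.toReal + ‖w l‖ ^ p.toReal ∧
      ‖w j - w l‖ ^ p.toReal = ‖w j‖ ^ p.toReal + ‖w l‖ ^ p.toReal := by
    intro j l hjl
    refine norm_emb_disjoint hq0 hptop _ _ ?_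
    intro x
    by_cases h1 : x.2 = j
    · right
      have : x.2 ≠ l := fun h => hjl (h1.symm.trans h)
      simp [colInd, this]
    · left
      simp [colInd, h1]
  have huw : ∀ j k, ‖u j - w k‖ ^ p.toReal ≠ ‖u j‖ ^ p.toReal + ‖w k‖ ^ p.toReal :=
    fun j k => norm_emb_row_col hq0 hptop j k
  -- `E` is infinite, since it contains a non-zero vector
  have hu0 : u ⟨0, by omega⟩ ≠ 0 := by
    intro h
    have := huw ⟨0, by omega⟩ ⟨0, by omega⟩
    rw [h] at this
    simp [Real.zero_rpow hq0.ne'] at this
  have : Infinite E := Infinite.of_injective (fun t : ℝ => t • u ⟨0, by omega⟩)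
    (smul_left_injective ℝ hu0)
  -- the finite set of points of the configuration, padded to exactly `n` points
  let M : Finset E := (((({0} : Finset E) ∪ Finset.univ.image u) ∪
    Finset.univ.image (fun j => -u j)) ∪ Finset.univ.image w) ∪ Finset.univ.image (fun k => -w k)
  have hMcard : M.card ≤ n := by
    have c1 : (Finset.univ.image u).card ≤ m := by
      simpa using Finset.card_image_le (s := (Finset.univ : Finset (Fin m))) (f := u)
    have c2 : (Finset.univ.image (fun j => -u j)).card ≤ m := by
      simpa using Finset.card_image_le (s := (Finset.univ : Finset (Fin m))) (f := fun j => -u j)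
    have c3 : (Finset.univ.image w).card ≤ m := by
      simpa using Finset.card_image_le (s := (Finset.univ : Finset (Fin m))) (f := w)
    have c4 : (Finset.univ.image (fun k => -w k)).card ≤ m := by
      simpa using Finset.card_image_le (s := (Finset.univ : Finset (Fin m))) (f := fun k => -w k)
    have c0 : (({0} : Finset E)).card = 1 := Finset.card_singleton _
    have d1 := Finset.card_union_le (({0} : Finset E)) (Finset.univ.image u)
    have d2 := Finset.card_union_le ((({0} : Finset E)) ∪ Finset.univ.image u)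
      (Finset.univ.image (fun j => -u j))
    have d3 := Finset.card_union_le (((({0} : Finset E)) ∪ Finset.univ.image u) ∪
      Finset.univ.image (fun j => -u j)) (Finset.univ.image w)
    have d4 := Finset.card_union_le ((((({0} : Finset E)) ∪ Finset.univ.image u) ∪
      Finset.univ.image (fun j => -u j)) ∪ Finset.univ.image w) (Finset.univ.image (fun k => -w k))
    show ((((({0} : Finset E) ∪ Finset.univ.image u) ∪
      Finset.univ.image (fun j => -u j)) ∪ Finset.univ.image w) ∪
        Finset.univ.image (fun k => -w k)).card ≤ n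
    omega
  obtain ⟨T, hMT, hTcard⟩ := Infinite.exists_superset_card_eq M n hMcard
  let e : T ≃ Fin n := Finset.equivFinOfCardEq hTcard
  let x : Fin n → E := fun i => ((e.symm i : T) : E)
  have hx : Function.Injective x := Subtype.val_injective.comp e.symm.injective
  obtain ⟨y, s, hs, hy⟩ := hd (Fin m × Fin m) Measure.count x hx
  -- transport the embedding to a map defined on the points of `T`
  let Y : E → PiLp p (fun _ : Fin d => ℝ) := fun z => if h : z ∈ T then y (e ⟨z, h⟩) else 0
  have hY : ∀ z ∈ (T : Set E), ∀ z' ∈ (T : Set E), ‖Y z - Y z'‖ = s * ‖z - z'‖ := by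
    intro z hz z' hz'
    have hz1 : z ∈ T := hz
    have hz1' : z' ∈ T := hz'
    have h1 : Y z = y (e ⟨z, hz1⟩) := dif_pos hz1
    have h2 : Y z' = y (e ⟨z', hz1'⟩) := dif_pos hz1'
    rw [h1, h2, hy]
    simp [x]
  have hmem : ∀ z, z ∈ M → z ∈ (T : Set E) := fun z hz => hMT hz
  refine core hq1 hq2 u w hu hw huw Y s hs (T : Set E) (hmem 0 ?_) (fun j => hmem _ ?_)
    (fun j => hmem _ ?_) (fun k => hmem _ ?_) (fun k => hmem _ ?_) hY
  · simp [M]
  · simp [M]
  · simp [M]
  · simp [M]
  · simp [M]

end Crest.Agent.S0359
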