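import Crest.Statements.S0505

set_option autoImplicit false
universe u
open Crest Crest.LogicCS

namespace Crest.Agent.S0505

set_option linter.unusedSectionVars false

open Finset Crest.ArithCircuit

section ProdRange

variable {R : Type*} [CommSemiring R] {n : ℕ}

/-- ordered product `W s * W (s+1) * ... * W (s+len-1)` -/
def prodRange (W : ℕ → Matrix (Fin n) (Fin n) R) : ℕ → ℕ → Matrix (Fin n) (Fin n) R
  | _, 0 => 1
  | s, len + 1 => W s * prodRange W (s + 1) len

theorem prodRange_add (W : ℕ → Matrix (Fin n) (Fin n) R) (s a b : ℕ) :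
    prodRange W s (a + b) = prodRange W s a * prodRange W (s + a) b := by
  induction a generalizing s with
  | zero => simp [prodRange]
  | succ a ih =>
    rw [show a + 1 + b = (a + b) + 1 by omega, prodRange, ih, prodRange, Matrix.mul_assoc,
      show s + 1 + a = s + (a + 1) by omega]

theorem prodRange_one (W : ℕ → Matrix (Fin n) (Fin n) R) (s len : ℕ)
    (h : ∀ k, s ≤ k → W k = 1) : prodRange W s len = 1 := by
  induction len generalizing s with
  | zero => rfl
  | succ len ih =>
    rw [prodRange, h s le_rfl, ih (s + 1) (fun k hk => h k (by omega)), Matrix.one_mul]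

theorem prodRange_blocks (W : ℕ → Matrix (Fin n) (Fin n) R) (t s r : ℕ) :
    prodRange (fun j => prodRange W (j * t) t) s r = prodRange W (s * t) (r * t) := by
  induction r generalizing s with
  | zero => simp [prodRange]
  | succ r ih =>
    rw [prodRange, ih, show (r + 1) * t = t + r * t by ring, prodRange_add,
      show (s + 1) * t = s * t + t by ring]

theorem prodRange_shift (W : ℕ → Matrix (Fin n) (Fin n) R) (s len : ℕ) :
    prodRange W (s + 1) len = prodRange (fun k => W (k + 1)) s len := by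
  induction len generalizing s with
  | zero => rfl
  | succ len ih => rw [prodRange, prodRange, ih]

theorem ofFn_prod_eq (m : ℕ) (M : Fin m → Matrix (Fin n) (Fin n) R)
    (W : ℕ → Matrix (Fin n) (Fin n) R) (h : ∀ k (hk : k < m), W k = M ⟨k, hk⟩) :
    (List.ofFn M).prod = prodRange W 0 m := by
  induction m generalizing W with
  | zero => simp [prodRange]
  | succ m ih =>
    rw [List.ofFn_succ, List.prod_cons, prodRange, prodRange_shift, h 0 (Nat.succ_pos m)]
    rw [ih (fun i => M i.succ) (fun k => W (k + 1)) (fun k hk => h (k + 1) (by omega))]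
    rfl

/-- path-sum formula -/
theorem prodRange_apply (W : ℕ → Matrix (Fin n) (Fin n) R) (s m : ℕ) (a b : Fin n) :
    prodRange W s m a b =
      ∑ f : Fin (m + 1) → Fin n,
        if f 0 = a ∧ f (Fin.last m) = b then
          ∏ q : Fin m, W (s + q) (f q.castSucc) (f q.succ) else 0 := by
  induction m generalizing s a with
  | zero =>
    simp only [prodRange, Matrix.one_apply, Finset.univ_eq_empty, Finset.prod_empty]
    rw [← (Equiv.funUnique (Fin 1) (Fin n)).symm.sum_comp]
    simp only [Equiv.funUnique_symm_apply, uniqueElim_const, Fin.last, Fin.isValue]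
    rw [Finset.sum_eq_single a]
    · by_cases h : a = b <;> simp [h]
    · intro c _ hc
      simp [hc]
    · simp
  | succ m ih =>
    rw [prodRange, Matrix.mul_apply]
    rw [← (Fin.consEquiv (fun _ : Fin (m + 2) => Fin n)).sum_comp, Fintype.sum_prod_type]
    simp only [Fin.consEquiv_apply]
    have hR : ∀ (x : Fin n) (y : Fin (m+1) → Fin n),
        (if (Fin.cons x y : Fin (m+2) → Fin n) 0 = a ∧
            (Fin.cons x y : Fin (m+2) → Fin n) (Fin.last (m+1)) = b then
          ∏ q : Fin (m+1), W (s + q) ((Fin.cons x y : Fin (m+2) → Fin n) q.castSucc)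
            ((Fin.cons x y : Fin (m+2) → Fin n) q.succ) else 0) =
        if x = a then (if y (Fin.last m) = b then
          W s a (y 0) * ∏ q : Fin m, W (s + 1 + q) (y q.castSucc) (y q.succ) else 0) else 0 := by
      intro x y
      have h1 : (Fin.cons x y : Fin (m+2) → Fin n) (Fin.last (m+1)) = y (Fin.last m) := by
        rw [← Fin.succ_last, Fin.cons_succ]
      rw [Fin.cons_zero, h1]
      by_cases hx : x = a
      · subst hx
        by_cases hy : y (Fin.last m) = b
        · simp only [hy, and_self, if_true]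
          rw [Fin.prod_univ_succ]
          have h2 : ∀ q : Fin m,
              (Fin.cons x y : Fin (m+2) → Fin n) q.succ.castSucc = y q.castSucc := by
            intro q
            rw [← Fin.succ_castSucc, Fin.cons_succ]
          simp only [Fin.castSucc_zero, Fin.cons_zero, Fin.succ_zero_eq_one, Fin.val_zero,
            add_zero, Fin.val_succ, Fin.cons_succ, h2]
          have h3 : (Fin.cons x y : Fin (m+2) → Fin n) 1 = y 0 := by
            rw [← Fin.succ_zero_eq_one, Fin.cons_succ]
          rw [h3]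
          congr 1
          apply Finset.prod_congr rfl
          intro q _
          rw [show s + (↑q + 1) = s + 1 + ↑q by omega]
        · simp [hy]
      · simp [hx]
    simp only [hR]
    have hRHS : ∀ F : (Fin (m+1) → Fin n) → R,
        (∑ x : Fin n, ∑ y : Fin (m+1) → Fin n, if x = a then F y else 0) = ∑ y, F y := by
      intro F
      rw [Finset.sum_comm]
      apply Finset.sum_congr rfl
      intro y _
      simp
    rw [hRHS]
    simp only [ih, Finset.mul_sum]
    rw [Finset.sum_comm]
    apply Finset.sum_congr rfl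
    intro y _
    rw [Finset.sum_eq_single (y 0)]
    · by_cases hy : y (Fin.last m) = b <;> simp [hy]
    · intro j _ hj
      simp [Ne.symm hj]
    · simp

/-- sum over paths with both endpoints fixed -/
theorem sum_ends {M : Type*} [AddCommMonoid M] (m : ℕ) (a b : Fin n)
    (G : (Fin (m + 2) → Fin n) → M) :
    (∑ f : Fin (m + 2) → Fin n, if f 0 = a ∧ f (Fin.last (m + 1)) = b then G f else 0) =
      ∑ g : Fin m → Fin n,
        G (Fin.cons a (Fin.snoc g b : Fin (m + 1) → Fin n) : Fin (m + 2) → Fin n) := by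
  rw [← (Fin.consEquiv (fun _ : Fin (m + 2) => Fin n)).sum_comp, Fintype.sum_prod_type]
  simp only [Fin.consEquiv_apply]
  have h1 : ∀ (x : Fin n) (y : Fin (m + 1) → Fin n),
      (Fin.cons x y : Fin (m+2) → Fin n) (Fin.last (m+1)) = y (Fin.last m) := by
    intro x y
    rw [← Fin.succ_last, Fin.cons_succ]
  simp only [Fin.cons_zero, h1]
  rw [Finset.sum_eq_single a]
  · rw [← (Fin.snocEquiv (fun _ : Fin (m + 1) => Fin n)).sum_comp, Fintype.sum_prod_type]
    simp only [Fin.snocEquiv_apply, Fin.snoc_last, true_and]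
    rw [Finset.sum_eq_single b]
    · simp only [if_true]
      rfl
    · intro c _ hc
      simp [hc]
    · simp
  · intro c _ hc
    simp [hc]
  · simp

end ProdRange



section Reindex

variable {K ι L B P S R L' B' P' S' R' : Type*} [CommSemiring K]

/-- transport a circuit along equivalences of the index types -/
def reindex (C : SPSPS K ι L B P S R) (eL : L ≃ L') (eB : B ≃ B') (eP : P ≃ P') (eS : S ≃ S')
    (eR : R ≃ R') : SPSPS K ι L' B' P' S' R' where
  leaf l := C.leaf (eL.symm l)
  inB b := (C.inB (eB.symm b)).map eL.toEmbedding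
  coefB b l := C.coefB (eB.symm b) (eL.symm l)
  inP p := (C.inP (eP.symm p)).map eB
  inS s := (C.inS (eS.symm s)).map eP.toEmbedding
  coefS s p := C.coefS (eS.symm s) (eP.symm p)
  inR r := (C.inR (eR.symm r)).map eS
  inOut := C.inOut.map eR.toEmbedding
  coefOut r := C.coefOut (eR.symm r)

variable (C : SPSPS K ι L B P S R) (eL : L ≃ L') (eB : B ≃ B') (eP : P ≃ P') (eS : S ≃ S')
  (eR : R ≃ R')

theorem reindex_leafVal (l : L') :
    (reindex C eL eB eP eS eR).leafVal l = C.leafVal (eL.symm l) := rfl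

theorem reindex_valB (b : B') :
    (reindex C eL eB eP eS eR).valB b = C.valB (eB.symm b) := by
  unfold SPSPS.valB
  simp only [reindex_leafVal]
  simp only [reindex, Finset.sum_map, Equiv.coe_toEmbedding, Equiv.symm_apply_apply]

theorem reindex_valP (p : P') :
    (reindex C eL eB eP eS eR).valP p = C.valP (eP.symm p) := by
  unfold SPSPS.valP
  have h : (reindex C eL eB eP eS eR).inP p = (C.inP (eP.symm p)).map eB := rfl
  rw [h, Multiset.map_map]
  congr 1
  apply Multiset.map_congr rfl
  intro b _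
  simp only [Function.comp_apply, reindex_valB, Equiv.symm_apply_apply]

theorem reindex_valS (s : S') :
    (reindex C eL eB eP eS eR).valS s = C.valS (eS.symm s) := by
  unfold SPSPS.valS
  simp only [reindex_valP]
  simp only [reindex, Finset.sum_map, Equiv.coe_toEmbedding, Equiv.symm_apply_apply]

theorem reindex_valR (r : R') :
    (reindex C eL eB eP eS eR).valR r = C.valR (eR.symm r) := by
  unfold SPSPS.valR
  have h : (reindex C eL eB eP eS eR).inR r = (C.inR (eR.symm r)).map eS := rfl
  rw [h, Multiset.map_map]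
  congr 1
  apply Multiset.map_congr rfl
  intro b _
  simp only [Function.comp_apply, reindex_valS, Equiv.symm_apply_apply]

theorem reindex_output :
    (reindex C eL eB eP eS eR).output = C.output := by
  unfold SPSPS.output
  simp only [reindex_valR]
  simp only [reindex, Finset.sum_map, Equiv.coe_toEmbedding, Equiv.symm_apply_apply]

theorem reindex_leafDeg (l : L') :
    (reindex C eL eB eP eS eR).leafDeg l = C.leafDeg (eL.symm l) := rfl

theorem reindex_degB (b : B') :
    (reindex C eL eB eP eS eR).degB b = C.degB (eB.symm b) := by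
  unfold SPSPS.degB
  have h : (reindex C eL eB eP eS eR).inB b = (C.inB (eB.symm b)).map eL.toEmbedding := rfl
  rw [h, Finset.sup_map]
  congr 1
  funext l
  simp only [Function.comp_apply, reindex_leafDeg, Equiv.coe_toEmbedding, Equiv.symm_apply_apply]

theorem reindex_degP (p : P') :
    (reindex C eL eB eP eS eR).degP p = C.degP (eP.symm p) := by
  unfold SPSPS.degP
  have h : (reindex C eL eB eP eS eR).inP p = (C.inP (eP.symm p)).map eB := rfl
  rw [h, Multiset.map_map]
  congr 1
  apply Multiset.map_congr rfl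
  intro b _
  simp only [Function.comp_apply, reindex_degB, Equiv.symm_apply_apply]

theorem reindex_degS (s : S') :
    (reindex C eL eB eP eS eR).degS s = C.degS (eS.symm s) := by
  unfold SPSPS.degS
  have h : (reindex C eL eB eP eS eR).inS s = (C.inS (eS.symm s)).map eP.toEmbedding := rfl
  rw [h, Finset.sup_map]
  congr 1
  funext l
  simp only [Function.comp_apply, reindex_degP, Equiv.coe_toEmbedding, Equiv.symm_apply_apply]

theorem reindex_degR (r : R') :
    (reindex C eL eB eP eS eR).degR r = C.degR (eR.symm r) := by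
  unfold SPSPS.degR
  have h : (reindex C eL eB eP eS eR).inR r = (C.inR (eR.symm r)).map eS := rfl
  rw [h, Multiset.map_map]
  congr 1
  apply Multiset.map_congr rfl
  intro b _
  simp only [Function.comp_apply, reindex_degS, Equiv.symm_apply_apply]

theorem reindex_degOut :
    (reindex C eL eB eP eS eR).degOut = C.degOut := by
  unfold SPSPS.degOut
  have h : (reindex C eL eB eP eS eR).inOut = C.inOut.map eR.toEmbedding := rfl
  rw [h, Finset.sup_map]
  congr 1
  funext l
  simp only [Function.comp_apply, reindex_degR, Equiv.coe_toEmbedding, Equiv.symm_apply_apply]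

theorem reindex_isHomogeneous (h : C.IsHomogeneous) :
    (reindex C eL eB eP eS eR).IsHomogeneous := by
  obtain ⟨h1, h2, h3⟩ := h
  refine ⟨?_, ?_, ?_⟩
  · intro b l hl
    have hl' : l ∈ (C.inB (eB.symm b)).map eL.toEmbedding := hl
    rw [Finset.mem_map] at hl'
    obtain ⟨l0, hl0, rfl⟩ := hl'
    rw [reindex_leafDeg, reindex_degB, Equiv.coe_toEmbedding, Equiv.symm_apply_apply]
    exact h1 _ _ hl0
  · intro s p hp
    have hp' : p ∈ (C.inS (eS.symm s)).map eP.toEmbedding := hp
    rw [Finset.mem_map] at hp'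
    obtain ⟨p0, hp0, rfl⟩ := hp'
    rw [reindex_degP, reindex_degS, Equiv.coe_toEmbedding, Equiv.symm_apply_apply]
    exact h2 _ _ hp0
  · intro r hr
    have hr' : r ∈ C.inOut.map eR.toEmbedding := hr
    rw [Finset.mem_map] at hr'
    obtain ⟨r0, hr0, rfl⟩ := hr'
    rw [reindex_degR, reindex_degOut, Equiv.coe_toEmbedding, Equiv.symm_apply_apply]
    exact h3 _ hr0

end Reindex



section Block

variable (K : Type*) [CommSemiring K] (n t r' : ℕ) (hn : 0 < n)

/-- padded variable matrices: the `k`-th variable matrix for `k < n`, the identity afterwards -/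
noncomputable def Wmat (k : ℕ) :
    Matrix (Fin n) (Fin n) (MvPolynomial (Fin n × Fin n × Fin n) K) :=
  if h : k < n then varMatrix K n ⟨k, h⟩ else 1

/-- endpoints-padded path -/
def ends (g : Fin r' → Fin n) : Fin (r' + 2) → Fin n :=
  Fin.cons ⟨0, hn⟩ (Fin.snoc g ⟨0, hn⟩ : Fin (r' + 1) → Fin n)

/-- the block circuit -/
def blockCircuit : SPSPS K (Fin n × Fin n × Fin n) (Fin n × Fin n × Fin n)
    (Fin n × Fin n × Fin n) (Fin (r' + 1) × (Fin (t + 1) → Fin n))
    (Fin (r' + 1) × Fin n × Fin n) (Fin r' → Fin n) where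
  leaf v := Sum.inl v
  inB v := {v}
  coefB _ _ := 1
  inP p := ((Finset.univ : Finset (Fin t)).filter (fun q => p.1.val * t + q.val < n)).val.map
    (fun q => ((⟨(p.1.val * t + q.val) % n, Nat.mod_lt _ hn⟩ : Fin n), p.2 q.castSucc, p.2 q.succ))
  inS s := Finset.univ.filter (fun p => p.1 = s.1 ∧ p.2 0 = s.2.1 ∧ p.2 (Fin.last t) = s.2.2 ∧
    ∀ q : Fin t, n ≤ s.1.val * t + q.val → p.2 q.castSucc = p.2 q.succ)
  coefS _ _ := 1
  inR g := (Finset.univ : Finset (Fin (r' + 1))).val.map
    (fun j => (j, ends n r' hn g j.castSucc, ends n r' hn g j.succ))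
  inOut := Finset.univ
  coefOut _ := 1

theorem block_valB (v : Fin n × Fin n × Fin n) :
    (blockCircuit K n t r' hn).valB v = MvPolynomial.X v := by
  unfold SPSPS.valB SPSPS.leafVal
  have h : (blockCircuit K n t r' hn).inB v = {v} := rfl
  have hc : ∀ l, (blockCircuit K n t r' hn).coefB v l = 1 := fun _ => rfl
  have hl : ∀ l, (blockCircuit K n t r' hn).leaf l = Sum.inl l := fun _ => rfl
  rw [h, Finset.sum_singleton, hc, hl, one_smul, Sum.elim_inl]

theorem block_valP (p : Fin (r' + 1) × (Fin (t + 1) → Fin n)) :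
    (blockCircuit K n t r' hn).valP p =
      ∏ q : Fin t, if p.1.val * t + q.val < n then
        (MvPolynomial.X ((⟨(p.1.val * t + q.val) % n, Nat.mod_lt _ hn⟩ : Fin n),
          p.2 q.castSucc, p.2 q.succ) : MvPolynomial (Fin n × Fin n × Fin n) K) else 1 := by
  unfold SPSPS.valP
  have h : (blockCircuit K n t r' hn).inP p =
      ((Finset.univ : Finset (Fin t)).filter (fun q => p.1.val * t + q.val < n)).val.map
    (fun q => ((⟨(p.1.val * t + q.val) % n, Nat.mod_lt _ hn⟩ : Fin n),
      p.2 q.castSucc, p.2 q.succ)) := rfl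
  rw [h, Multiset.map_map, ← Finset.prod_filter]
  simp only [Finset.prod, Function.comp_def, block_valB]

theorem block_valP_of_const (j : Fin (r' + 1)) (f : Fin (t + 1) → Fin n)
    (hf : ∀ q : Fin t, n ≤ j.val * t + q.val → f q.castSucc = f q.succ) :
    (blockCircuit K n t r' hn).valP (j, f) =
      ∏ q : Fin t, Wmat K n (j.val * t + q.val) (f q.castSucc) (f q.succ) := by
  rw [block_valP]
  apply Finset.prod_congr rfl
  intro q _
  unfold Wmat
  by_cases h : j.val * t + q.val < n
  · unfold varMatrix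
    simp only [h, if_true, dif_pos, Matrix.of_apply, Nat.mod_eq_of_lt h]
  · rw [if_neg h, dif_neg h, hf q (not_lt.mp h), Matrix.one_apply_eq]

theorem prod_Wmat_zero (j : ℕ) (f : Fin (t + 1) → Fin n)
    (hf : ¬ ∀ q : Fin t, n ≤ j * t + q.val → f q.castSucc = f q.succ) :
    ∏ q : Fin t, Wmat K n (j * t + q.val) (f q.castSucc) (f q.succ) = 0 := by
  push Not at hf
  obtain ⟨q, hq, hne⟩ := hf
  apply Finset.prod_eq_zero (Finset.mem_univ q)
  unfold Wmat
  rw [dif_neg (not_lt.mpr hq), Matrix.one_apply_ne hne]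

theorem block_valS (s : Fin (r' + 1) × Fin n × Fin n) :
    (blockCircuit K n t r' hn).valS s = prodRange (Wmat K n) (s.1.val * t) t s.2.1 s.2.2 := by
  obtain ⟨j, a, b⟩ := s
  unfold SPSPS.valS
  have h : (blockCircuit K n t r' hn).inS (j, a, b) =
      Finset.univ.filter (fun p : Fin (r' + 1) × (Fin (t + 1) → Fin n) =>
        p.1 = j ∧ p.2 0 = a ∧ p.2 (Fin.last t) = b ∧
        ∀ q : Fin t, n ≤ j.val * t + q.val → p.2 q.castSucc = p.2 q.succ) := rfl
  have hc : ∀ p, (blockCircuit K n t r' hn).coefS (j, a, b) p = 1 := fun _ => rfl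
  rw [h, Finset.sum_filter, Fintype.sum_prod_type, prodRange_apply]
  simp only [hc, one_smul]
  rw [Finset.sum_eq_single j]
  · apply Finset.sum_congr rfl
    intro f _
    by_cases h0 : f 0 = a ∧ f (Fin.last t) = b
    · by_cases hf : ∀ q : Fin t, n ≤ j.val * t + q.val → f q.castSucc = f q.succ
      · rw [if_pos ⟨rfl, h0.1, h0.2, hf⟩, if_pos h0, block_valP_of_const K n t r' hn j f hf]
      · rw [if_neg (fun hh => hf hh.2.2.2), if_pos h0, prod_Wmat_zero K n t j.val f hf]
    · rw [if_neg (fun hh => h0 ⟨hh.2.1, hh.2.2.1⟩), if_neg h0]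
  · intro j' _ hj'
    apply Finset.sum_eq_zero
    intro f _
    rw [if_neg (fun hh => hj' hh.1)]
  · simp

theorem block_valR (g : Fin r' → Fin n) :
    (blockCircuit K n t r' hn).valR g =
      ∏ j : Fin (r' + 1), prodRange (Wmat K n) (j.val * t) t
        (ends n r' hn g j.castSucc) (ends n r' hn g j.succ) := by
  unfold SPSPS.valR
  have h : (blockCircuit K n t r' hn).inR g = (Finset.univ : Finset (Fin (r' + 1))).val.map
    (fun j => (j, ends n r' hn g j.castSucc, ends n r' hn g j.succ)) := rfl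
  rw [h, Multiset.map_map]
  simp only [Finset.prod, Function.comp_def, block_valS]

theorem block_output (hcover : n ≤ (r' + 1) * t) :
    (blockCircuit K n t r' hn).output =
      (List.ofFn (varMatrix K n)).prod ⟨0, hn⟩ ⟨0, hn⟩ := by
  unfold SPSPS.output
  have h : (blockCircuit K n t r' hn).inOut = Finset.univ := rfl
  have hc : ∀ g, (blockCircuit K n t r' hn).coefOut g = 1 := fun _ => rfl
  rw [h]
  simp only [hc, one_smul, block_valR]
  rw [ofFn_prod_eq n (varMatrix K n) (Wmat K n) (fun k hk => by unfold Wmat; rw [dif_pos hk])]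
  obtain ⟨e, he⟩ := Nat.exists_eq_add_of_le hcover
  have h2 : prodRange (Wmat K n) 0 n =
      prodRange (fun j => prodRange (Wmat K n) (j * t) t) 0 (r' + 1) := by
    rw [prodRange_blocks, he, Nat.zero_mul, prodRange_add,
      prodRange_one (Wmat K n) (0 + n) e (fun k hk => by
        unfold Wmat; rw [dif_neg (by omega)]), Matrix.mul_one]
  rw [h2, prodRange_apply, sum_ends]
  apply Finset.sum_congr rfl
  intro g _
  apply Finset.prod_congr rfl
  intro j _
  rw [Nat.zero_add]
  rfl

end Block



section BlockDeg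

variable (K : Type*) [CommSemiring K] (n t r' : ℕ) (hn : 0 < n)

theorem sup_eq_of_const {α : Type*} (T : Finset α) (f : α → ℕ) (c : ℕ)
    (h : ∀ p ∈ T, f p = c) (hne : T.Nonempty) : T.sup f = c := by
  apply le_antisymm
  · exact Finset.sup_le (fun p hp => (h p hp).le)
  · obtain ⟨p, hp⟩ := hne
    rw [← h p hp]
    exact Finset.le_sup hp

theorem eq_sup_of_const {α : Type*} (T : Finset α) (f : α → ℕ) (c : ℕ)
    (h : ∀ p ∈ T, f p = c) : ∀ p ∈ T, f p = T.sup f := by
  intro p hp
  rw [sup_eq_of_const T f c h ⟨p, hp⟩]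
  exact h p hp

theorem block_leafDeg (v : Fin n × Fin n × Fin n) :
    (blockCircuit K n t r' hn).leafDeg v = 1 := rfl

theorem block_degB (v : Fin n × Fin n × Fin n) :
    (blockCircuit K n t r' hn).degB v = 1 := by
  unfold SPSPS.degB
  have h : (blockCircuit K n t r' hn).inB v = {v} := rfl
  rw [h, Finset.sup_singleton, block_leafDeg]

/-- number of genuine matrices in block `j` -/
def blockLen (j : ℕ) : ℕ :=
  ((Finset.univ : Finset (Fin t)).filter (fun q => j * t + q.val < n)).card

theorem block_degP (p : Fin (r' + 1) × (Fin (t + 1) → Fin n)) :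
    (blockCircuit K n t r' hn).degP p = blockLen n t p.1.val := by
  unfold SPSPS.degP
  have h : (blockCircuit K n t r' hn).inP p =
      ((Finset.univ : Finset (Fin t)).filter (fun q => p.1.val * t + q.val < n)).val.map
    (fun q => ((⟨(p.1.val * t + q.val) % n, Nat.mod_lt _ hn⟩ : Fin n),
      p.2 q.castSucc, p.2 q.succ)) := rfl
  rw [h, Multiset.map_map]
  simp only [Function.comp_def, block_degB, Multiset.map_const', Multiset.sum_replicate,
    smul_eq_mul, mul_one, blockLen, Finset.card_val]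

theorem block_inS_nonempty (ht : 0 < t) (hr : r' * t < n) (s : Fin (r' + 1) × Fin n × Fin n) :
    ((blockCircuit K n t r' hn).inS s).Nonempty := by
  obtain ⟨j, a, b⟩ := s
  have h : (blockCircuit K n t r' hn).inS (j, a, b) =
      Finset.univ.filter (fun p : Fin (r' + 1) × (Fin (t + 1) → Fin n) =>
        p.1 = j ∧ p.2 0 = a ∧ p.2 (Fin.last t) = b ∧
        ∀ q : Fin t, n ≤ j.val * t + q.val → p.2 q.castSucc = p.2 q.succ) := rfl
  rw [h]
  refine ⟨(j, fun i => if i = 0 then a else b), ?_⟩
  rw [Finset.mem_filter]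
  refine ⟨Finset.mem_univ _, rfl, ?_, ?_, ?_⟩
  · simp
  · have : Fin.last t ≠ 0 := by
      intro h0
      have := congrArg Fin.val h0
      simp at this
      omega
    simp [this]
  · intro q hq
    have hj : j.val * t ≤ r' * t := Nat.mul_le_mul_right t (Nat.lt_succ_iff.mp j.isLt)
    have hq0 : q.val ≠ 0 := by omega
    have h1 : q.castSucc ≠ 0 := by
      intro h0
      have := congrArg Fin.val h0
      simp at this
      omega
    have h2 : q.succ ≠ 0 := Fin.succ_ne_zero q
    simp [h1, h2]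

theorem block_degS (ht : 0 < t) (hr : r' * t < n) (s : Fin (r' + 1) × Fin n × Fin n) :
    (blockCircuit K n t r' hn).degS s = blockLen n t s.1.val := by
  unfold SPSPS.degS
  apply sup_eq_of_const _ _ _ _ (block_inS_nonempty K n t r' hn ht hr s)
  intro p hp
  have h : (blockCircuit K n t r' hn).inS s =
      Finset.univ.filter (fun p : Fin (r' + 1) × (Fin (t + 1) → Fin n) =>
        p.1 = s.1 ∧ p.2 0 = s.2.1 ∧ p.2 (Fin.last t) = s.2.2 ∧
        ∀ q : Fin t, n ≤ s.1.val * t + q.val → p.2 q.castSucc = p.2 q.succ) := rfl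
  rw [h, Finset.mem_filter] at hp
  rw [block_degP, hp.2.1]

theorem block_degR (ht : 0 < t) (hr : r' * t < n) (g : Fin r' → Fin n) :
    (blockCircuit K n t r' hn).degR g =
      ((Finset.univ : Finset (Fin (r' + 1))).val.map (fun j => blockLen n t j.val)).sum := by
  unfold SPSPS.degR
  have h : (blockCircuit K n t r' hn).inR g = (Finset.univ : Finset (Fin (r' + 1))).val.map
    (fun j => (j, ends n r' hn g j.castSucc, ends n r' hn g j.succ)) := rfl
  rw [h, Multiset.map_map]
  simp only [Function.comp_def, block_degS K n t r' hn ht hr]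

theorem block_isHomogeneous (ht : 0 < t) (hr : r' * t < n) :
    (blockCircuit K n t r' hn).IsHomogeneous := by
  refine ⟨?_, ?_, ?_⟩
  · intro b l _
    rw [block_leafDeg, block_degB]
  · intro s p hp
    have h : (blockCircuit K n t r' hn).inS s =
        Finset.univ.filter (fun p : Fin (r' + 1) × (Fin (t + 1) → Fin n) =>
          p.1 = s.1 ∧ p.2 0 = s.2.1 ∧ p.2 (Fin.last t) = s.2.2 ∧
          ∀ q : Fin t, n ≤ s.1.val * t + q.val → p.2 q.castSucc = p.2 q.succ) := rfl
    rw [h, Finset.mem_filter] at hp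
    rw [block_degP, block_degS K n t r' hn ht hr, hp.2.1]
  · unfold SPSPS.degOut
    exact eq_sup_of_const _ _ _ (fun g _ => block_degR K n t r' hn ht hr g)

end BlockDeg



theorem nat_bound (n t r' : ℕ) (hn : 2 ≤ n) (ht2 : 2 ≤ t) (htn : t ≤ n) (hr : r' * t < n)
    (hnt : n ≤ t * t) :
    2 * n ^ 3 + (r' + 1) * n ^ 2 + (r' + 1) * n ^ (t + 1) + n ^ r' + 1 ≤ n ^ (t + 3) := by
  have hrt : r' < t := Nat.lt_of_mul_lt_mul_right (lt_of_lt_of_le hr hnt)
  rcases Nat.lt_or_ge n 3 with h3 | h3
  · have hn2 : n = 2 := by omega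
    subst hn2
    have ht : t = 2 := by omega
    subst ht
    have hr0 : r' = 0 := by omega
    subst hr0
    norm_num
  · have h1 : n ^ 3 ≤ n ^ (t + 1) := Nat.pow_le_pow_right (by omega) (by omega)
    have h2 : (r' + 1) * n ^ 2 ≤ n ^ 3 := by
      calc (r' + 1) * n ^ 2 ≤ n * n ^ 2 := Nat.mul_le_mul_right _ (by omega)
        _ = n ^ 3 := by ring
    have h3' : (r' + 1) * n ^ (t + 1) ≤ n * n ^ (t + 1) := Nat.mul_le_mul_right _ (by omega)
    have h4 : n ^ r' ≤ n ^ (t + 1) := Nat.pow_le_pow_right (by omega) (by omega)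
    have h5 : 1 ≤ n ^ (t + 1) := Nat.one_le_pow _ _ (by omega)
    have h6 : n ^ (t + 3) = n * n * n ^ (t + 1) := by ring
    have h7 : (n + 5) * n ^ (t + 1) ≤ n * n * n ^ (t + 1) :=
      Nat.mul_le_mul_right _ (by nlinarith)
    rw [h6]
    linarith

theorem ceil_facts (n : ℕ) (hn : 2 ≤ n) (t r : ℕ) (ht : t = ⌈Real.sqrt n⌉₊)
    (hr : r = ⌈(n : ℝ) / (t : ℝ)⌉₊) :
    2 ≤ t ∧ t ≤ n ∧ n ≤ t * t ∧ 1 ≤ r ∧ (r - 1) * t < n ∧ n ≤ r * t ∧
      (t : ℝ) < Real.sqrt n + 1 := by
  have hn0 : (0:ℝ) ≤ n := Nat.cast_nonneg n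
  have hn2 : (2:ℝ) ≤ n := by exact_mod_cast hn
  have hs0 : 0 ≤ Real.sqrt n := Real.sqrt_nonneg _
  have hsq : Real.sqrt n ^ 2 = n := Real.sq_sqrt hn0
  have hs1 : 1 < Real.sqrt n := by
    by_contra hcon
    push Not at hcon
    nlinarith
  have hsn : Real.sqrt n ≤ n := by nlinarith
  have h_le : Real.sqrt n ≤ t := by rw [ht]; exact Nat.le_ceil _
  have h_lt : (t : ℝ) < Real.sqrt n + 1 := by rw [ht]; exact Nat.ceil_lt_add_one hs0
  have ht2 : 2 ≤ t := by
    have h1 : (1 : ℝ) < t := lt_of_lt_of_le hs1 h_le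
    have h2 : 1 < t := by exact_mod_cast h1
    omega
  have htn : t ≤ n := by rw [ht]; exact Nat.ceil_le.mpr hsn
  have hnt : n ≤ t * t := by
    have h1 : (n : ℝ) ≤ (t:ℝ) * t := by nlinarith
    exact_mod_cast h1
  have htpos : (0:ℝ) < t := by
    have : 0 < t := by omega
    exact_mod_cast this
  have hdiv0 : 0 ≤ (n:ℝ)/(t:ℝ) := by positivity
  have hr_le : (n:ℝ)/(t:ℝ) ≤ r := by rw [hr]; exact Nat.le_ceil _
  have hr_lt : (r:ℝ) < (n:ℝ)/(t:ℝ) + 1 := by rw [hr]; exact Nat.ceil_lt_add_one hdiv0
  have hr1 : 1 ≤ r := by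
    rw [hr]
    exact Nat.ceil_pos.mpr (by positivity)
  have hcov : n ≤ r * t := by
    have h1 : (n:ℝ) ≤ (r:ℝ) * t := by rwa [div_le_iff₀ htpos] at hr_le
    exact_mod_cast h1
  have hlt : (r - 1) * t < n := by
    have h1 : ((r:ℝ) - 1) * t < n := by
      have h2 : (r:ℝ) - 1 < (n:ℝ)/(t:ℝ) := by linarith
      rwa [lt_div_iff₀ htpos] at h2
    have h' : (((r - 1 : ℕ) : ℝ)) * t < n := by
      rw [Nat.cast_sub hr1]
      simpa using h1
    exact_mod_cast h'
  exact ⟨ht2, htn, hnt, hr1, hlt, hcov, h_lt⟩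

theorem exists_circuit (K : Type u) [Field K] (n t r' : ℕ) (hn : 0 < n) (ht : 0 < t)
    (hr : r' * t < n) (hcov : n ≤ (r' + 1) * t) :
    ∃ (l b p s r : ℕ)
      (C : SPSPS K (Fin n × Fin n × Fin n) (Fin l) (Fin b) (Fin p) (Fin s) (Fin r)),
      C.IsHomogeneous ∧ C.output = imm K n ∧
        C.size = 2 * n ^ 3 + (r' + 1) * n ^ 2 + (r' + 1) * n ^ (t + 1) + n ^ r' + 1 := by
  refine ⟨_, _, _, _, _, reindex (blockCircuit K n t r' hn) (Fintype.equivFin _)
    (Fintype.equivFin _) (Fintype.equivFin _) (Fintype.equivFin _) (Fintype.equivFin _),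
    ?_, ?_, ?_⟩
  · exact reindex_isHomogeneous _ _ _ _ _ _ (block_isHomogeneous K n t r' hn ht hr)
  · rw [reindex_output, block_output K n t r' hn hcov]
    obtain ⟨m, rfl⟩ : ∃ m, n = m + 1 := ⟨n - 1, by omega⟩
    rfl
  · unfold SPSPS.size
    simp only [Fintype.card_fin, Fintype.card_prod, Fintype.card_fun]
    ring


/-- For every field K and every n ≥ 2 there is a syntactically homogeneous depth-five sum-product circuit over K in the n³ matrix-entry variables (shared gates, unrestricted fan-in and bottom support) whose output is the top-left entry of the ordered product of the n variable matrices of order n and whose number of vertices, leaves included, is at most 2n³ + r·n² + r·n^(t+1) + n^(r−1) + 1 with t = ⌈√n⌉, r = ⌈n/t⌉, and also at most n^(√n + 4). Layers are indexed by initial segments of ℕ. -/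
theorem result (K : Type u) [Field K] (n : ℕ)
    (hn : 2 ≤ n) :
    ∃ (l b p s r : ℕ)
      (C : Crest.ArithCircuit.SPSPS K (Fin n × Fin n × Fin n) (Fin l) (Fin b) (Fin p) (Fin s) (Fin r)),
      C.IsHomogeneous ∧ C.output = Crest.ArithCircuit.imm K n ∧
        C.size ≤ 2 * n ^ 3 + ⌈(n : ℝ) / ⌈Real.sqrt n⌉₊⌉₊ * n ^ 2 +
          ⌈(n : ℝ) / ⌈Real.sqrt n⌉₊⌉₊ * n ^ (⌈Real.sqrt n⌉₊ + 1) +
          n ^ (⌈(n : ℝ) / ⌈Real.sqrt n⌉₊⌉₊ - 1) + 1 ∧
        (C.size : ℝ) ≤ (n : ℝ) ^ (Real.sqrt n + 4) := by
  obtain ⟨t, ht⟩ : ∃ t, t = ⌈Real.sqrt n⌉₊ := ⟨_, rfl⟩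
  obtain ⟨r, hr⟩ : ∃ r, r = ⌈(n : ℝ) / (t : ℝ)⌉₊ := ⟨_, rfl⟩
  obtain ⟨ht2, htn, hnt, hr1, hlt, hcov, h_lt⟩ := ceil_facts n hn t r ht hr
  rw [← ht, ← hr]
  obtain ⟨r', rfl⟩ : ∃ r', r = r' + 1 := ⟨r - 1, by omega⟩
  have hlt' : r' * t < n := by simpa using hlt
  obtain ⟨l, b, p, s, r, C, hC1, hC2, hC3⟩ :=
    exists_circuit K n t r' (by omega) (by omega) hlt' hcov
  refine ⟨l, b, p, s, r, C, hC1, hC2, ?_, ?_⟩
  · rw [hC3, Nat.add_sub_cancel]
  · rw [hC3]
    have hnat := nat_bound n t r' hn ht2 htn hlt' hnt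
    have h1 : ((2 * n ^ 3 + (r' + 1) * n ^ 2 + (r' + 1) * n ^ (t + 1) + n ^ r' + 1 : ℕ) : ℝ) ≤
        ((n ^ (t + 3) : ℕ) : ℝ) := by exact_mod_cast hnat
    refine le_trans h1 ?_
    rw [Nat.cast_pow, ← Real.rpow_natCast]
    apply Real.rpow_le_rpow_of_exponent_le (by exact_mod_cast (by omega : 1 ≤ n))
    push_cast
    linarith

end Crest.Agent.S0505
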